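import Vale.Agent.P088.R2.H794.RowLog
import Vale.Agent.P088.R2.H281.BBd
import Vale.Agent.P088.R2.H420.BEN
import Vale.Agent.P088.R2.H381.BQu
import Vale.Agent.P088.R2.H808.RowBInf
import Vale.Agent.P088.R2.H787.BFin
import Vale.Agent.P088.R2.H335.BSc
import Vale.Agent.P088.R2.H437.BLC
import Vale.Agent.P088.R2.H934.BSm
import Vale.Agent.P088.R2.H593.BRt
import Vale.Agent.P088.R2.H647.BUn
import Vale.Agent.P088.R2.H169.BCC
import Vale.Agent.P088.R2.H169.BLIN

/-!
# P088, two metrics on a smooth domain, no condition at the boundary: assembly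
-/

noncomputable section

namespace Vale.Agent.P088.HY.Bd

/-- Two metrics near `e` on any smooth domain. -/
theorem rowBSC : RowBSC :=
  H335.rowBSC (rowBFIN (rowBINF (rowBBD rowBQU rowBEN)) H794.rowLOG)

/-- Two metrics, each one near a constant metric, on any smooth domain. -/
theorem rowBCC' : RowBCC := rowBCC (H647.rowBUN (H437.rowBLC rowBSC)) rowBLIN

/-- **Two metrics on a smooth domain**, no condition at the boundary. -/
theorem finDom : FinDom := finDom_of (R2.H934.rowBSM rowBCC') rowBCC'

end Vale.Agent.P088.HY.Bd
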