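import Vale.Agent.P088.R2.H794.B.FinD
import Vale.Agent.P088.R2.H437.BOS
import Vale.Agent.P088.R2.H169.BSB
import Vale.Agent.P088.R2.H593.FinD2

/-!
# P088, two metrics on a smooth domain, bounds of every order: assembly
-/

noncomputable section

namespace Vale.Agent.P088.HY.Bd

theorem rowBOS : RowBOS := H437.rowBOS rowBCC'

/-- **Two metrics on a smooth domain**: small oscillation, or a small domain. -/
theorem finD2 : FinD2 := finD2_of rowBOS (rowBSB rowBOS)

end Vale.Agent.P088.HY.Bd
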